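import Vale.Agent.P224.POS.Psd

/-!
Certificate data: Gram matrices 8,9,10,11,12,13 and their positive semidefiniteness.
-/

namespace Vale.Agent.P224.PO.M5

open Vale.Agent.P224.POS

noncomputable section

/-- Gram matrix of block 8 ((u1-E)*sca00), rows of the lower triangle -/
def G8 : List (List Int) := rowsZ 2048 [
  1594,
  3634036] 0

/-- witness of block 8 -/
def W8 : List (List Nat) := rowsN 64 [
  49,
  3352] 0

set_option maxRecDepth 100000 in
theorem psd8 : psdChk 32 1 98 W8 G8 = true := by decide +kernel

/-- Gram matrix of block 9 ((u1-E)*sca10), rows of the lower triangle -/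
def G9 : List (List Int) := rowsZ 4096 [
  2798,
  14657066] 0

/-- witness of block 9 -/
def W9 : List (List Nat) := rowsN 64 [
  53,
  3785] 0

set_option maxRecDepth 100000 in
theorem psd9 : psdChk 32 1 105 W9 G9 = true := by decide +kernel

/-- Gram matrix of block 10 ((u1-E)*sca11), rows of the lower triangle -/
def G10 : List (List Int) := rowsZ 131072 [
  73106,
  14861781918] 0

/-- witness of block 10 -/
def W10 : List (List Nat) := rowsN 512 [
  330,
  189003] 0

set_option maxRecDepth 100000 in
theorem psd10 : psdChk 256 1 702 W10 G10 = true := by decide +kernel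

/-- Gram matrix of block 11 (r(u1-E)*sca00), rows of the lower triangle -/
def G11 : List (List Int) := rowsZ 4096 [
  2798,
  13100656] 0

/-- witness of block 11 -/
def W11 : List (List Nat) := rowsN 64 [
  53,
  3469] 0

set_option maxRecDepth 100000 in
theorem psd11 : psdChk 32 1 100 W11 G11 = true := by decide +kernel

/-- Gram matrix of block 12 (r(u1-E)*sca10), rows of the lower triangle -/
def G12 : List (List Int) := rowsZ 16384 [
  10202,
  220730820] 0

/-- witness of block 12 -/
def W12 : List (List Nat) := rowsN 256 [
  169,
  40256] 0

set_option maxRecDepth 100000 in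
theorem psd12 : psdChk 128 1 111 W12 G12 = true := by decide +kernel

/-- Gram matrix of block 13 (r(u1-E)*sca11), rows of the lower triangle -/
def G13 : List (List Int) := rowsZ 2097152 [
  1328186,
  4163237338698] 0

/-- witness of block 13 -/
def W13 : List (List Nat) := rowsN 2048 [
  1547,
  2365508] 0

set_option maxRecDepth 100000 in
theorem psd13 : psdChk 1024 1 1945 W13 G13 = true := by decide +kernel

end

end Vale.Agent.P224.PO.M5
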