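import Vale.Agent.P224.PO.RowsO

/-!
Certificate data in dimension 5: value terms and rows.
-/

namespace Vale.Agent.P224.PO.M5

open Vale.Agent.P224.UE Vale.Agent.P224.POS Vale.Agent.P224.PO

noncomputable section

/-- the rows: integer coefficient and term (family, e, i, j, d, k, l) -/
def rows : List (Int × HTerm) := [
  (-4590760, ⟨0, -5, 0, 0, 0, 0, 0⟩),
  (-17654800, ⟨0, -3, 0, 0, 0, 0, 0⟩),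
  (2616400, ⟨0, -2, 0, 0, 0, 0, 0⟩),
  (-32315760, ⟨0, -1, 0, 0, 0, 0, 0⟩),
  (33494840, ⟨0, 0, 0, 0, 0, 0, 0⟩),
  (-13558080, ⟨0, 1, 0, 0, 0, 0, 0⟩),
  (1059360, ⟨0, -5, 2, 0, 0, 0, 0⟩),
  (-660200, ⟨0, -4, 2, 0, 0, 0, 0⟩),
  (5539760, ⟨0, -3, 2, 0, 0, 0, 0⟩),
  (-1015680, ⟨0, -2, 2, 0, 0, 0, 0⟩),
  (-5540160, ⟨1, -3, 1, 0, 0, 0, 0⟩),
  (-3628040, ⟨1, -2, 1, 0, 0, 0, 0⟩),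
  (7487200, ⟨1, -1, 1, 0, 0, 0, 0⟩),
  (-2203840, ⟨1, 0, 1, 0, 0, 0, 0⟩),
  (4517680, ⟨3, -5, 0, 0, 0, 0, 0⟩),
  (5190040, ⟨3, -3, 0, 0, 0, 0, 0⟩),
  (2883560, ⟨3, -2, 0, 0, 0, 0, 0⟩),
  (3772240, ⟨3, -1, 0, 0, 0, 0, 0⟩),
  (969040, ⟨3, 0, 0, 0, 0, 0, 0⟩),
  (-976240, ⟨3, -5, 2, 0, 0, 0, 0⟩),
  (253240, ⟨3, -4, 2, 0, 0, 0, 0⟩),
  (7134720, ⟨0, -5, 0, 0, 0, 1, 0⟩),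
  (8536520, ⟨0, -4, 0, 0, 0, 1, 0⟩),
  (-8864400, ⟨0, -3, 0, 0, 0, 1, 0⟩),
  (162081960, ⟨0, -2, 0, 0, 0, 1, 0⟩),
  (62992640, ⟨0, -1, 0, 0, 0, 1, 0⟩),
  (-53240280, ⟨0, 0, 0, 0, 0, 1, 0⟩),
  (19866760, ⟨0, 1, 0, 0, 0, 1, 0⟩),
  (-86294080, ⟨0, -5, 1, 0, 1, 0, 0⟩),
  (30169320, ⟨0, -4, 1, 0, 1, 0, 0⟩),
  (-244090200, ⟨0, -3, 1, 0, 1, 0, 0⟩),
  (-778567200, ⟨0, -2, 1, 0, 1, 0, 0⟩),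
  (-394535040, ⟨0, -1, 1, 0, 1, 0, 0⟩),
  (93191600, ⟨0, -5, 1, 1, 0, 0, 0⟩),
  (-193019840, ⟨0, -4, 1, 1, 0, 0, 0⟩),
  (275957160, ⟨0, -3, 1, 1, 0, 0, 0⟩),
  (-635596600, ⟨0, -2, 1, 1, 0, 0, 0⟩),
  (6092000, ⟨1, -3, 1, 0, 0, 1, 0⟩),
  (-6519600, ⟨1, -2, 1, 0, 0, 1, 0⟩),
  (596080, ⟨1, -1, 1, 0, 0, 1, 0⟩),
  (-12647040, ⟨1, -4, 0, 0, 1, 0, 0⟩),
  (54885680, ⟨1, -3, 0, 0, 1, 0, 0⟩),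
  (426921560, ⟨1, -2, 0, 0, 1, 0, 0⟩),
  (196614400, ⟨1, -1, 0, 0, 1, 0, 0⟩),
  (-1614468640, ⟨1, 0, 0, 0, 1, 0, 0⟩),
  (-804538080, ⟨1, 1, 0, 0, 1, 0, 0⟩),
  (637200, ⟨1, -5, 2, 0, 1, 0, 0⟩),
  (-13229640, ⟨1, -4, 2, 0, 1, 0, 0⟩),
  (14611000, ⟨1, -3, 2, 0, 1, 0, 0⟩),
  (12647040, ⟨1, -4, 0, 1, 0, 0, 0⟩),
  (-72131480, ⟨1, -3, 0, 1, 0, 0, 0⟩),
  (477168960, ⟨1, -2, 0, 1, 0, 0, 0⟩),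
  (328597960, ⟨1, -1, 0, 1, 0, 0, 0⟩),
  (-1175980600, ⟨1, 0, 0, 1, 0, 0, 0⟩),
  (-25423360, ⟨1, 1, 0, 1, 0, 0, 0⟩),
  (-758560, ⟨1, -5, 2, 1, 0, 0, 0⟩),
  (11224240, ⟨1, -4, 2, 1, 0, 0, 0⟩),
  (-10289560, ⟨1, -3, 2, 1, 0, 0, 0⟩),
  (-8055440, ⟨3, -5, 0, 0, 0, 1, 0⟩),
  (8536520, ⟨3, -4, 0, 0, 0, 1, 0⟩),
  (-46938840, ⟨3, -3, 0, 0, 0, 1, 0⟩),
  (162113520, ⟨3, -2, 0, 0, 0, 1, 0⟩),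
  (1900440, ⟨3, -1, 0, 0, 0, 1, 0⟩),
  (-79764360, ⟨3, -5, 1, 0, 1, 0, 0⟩),
  (172218880, ⟨3, -4, 1, 0, 1, 0, 0⟩),
  (-53359440, ⟨3, -3, 1, 0, 1, 0, 0⟩),
  (73483320, ⟨3, -5, 1, 1, 0, 0, 0⟩),
  (-21590480, ⟨3, -4, 1, 1, 0, 0, 0⟩),
  (68013240, ⟨3, -3, 1, 1, 0, 0, 0⟩),
  (4110520, ⟨5, -4, 1, 0, 0, 0, 0⟩),
  (-4165600, ⟨5, -3, 1, 0, 0, 0, 0⟩),
  (8488800, ⟨5, -2, 1, 0, 0, 0, 0⟩),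
  (3748000, ⟨5, -1, 1, 0, 0, 0, 0⟩),
  (-5143320, ⟨0, -5, 0, 0, 0, 0, 1⟩),
  (-18035640, ⟨0, -3, 0, 0, 0, 0, 1⟩),
  (-4189960, ⟨0, -2, 0, 0, 0, 0, 1⟩),
  (-932400, ⟨0, -5, 0, 0, 0, 2, 0⟩),
  (-770680, ⟨0, -3, 0, 0, 0, 2, 0⟩),
  (12783720, ⟨0, -2, 0, 0, 0, 2, 0⟩),
  (-34945040, ⟨0, -1, 0, 0, 0, 2, 0⟩),
  (21380040, ⟨0, 0, 0, 0, 0, 2, 0⟩),
  (6343000, ⟨0, -5, 0, 0, 2, 0, 0⟩),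
  (86939960, ⟨0, -4, 0, 0, 2, 0, 0⟩),
  (-99782480, ⟨0, -3, 0, 0, 2, 0, 0⟩),
  (56957440, ⟨0, -2, 0, 0, 2, 0, 0⟩),
  (-681651040, ⟨0, -1, 0, 0, 2, 0, 0⟩),
  (220493160, ⟨0, 0, 0, 0, 2, 0, 0⟩),
  (-12678522000, ⟨0, 1, 0, 0, 2, 0, 0⟩),
  (-16464880, ⟨0, -5, 0, 1, 1, 0, 0⟩),
  (15255760, ⟨0, -4, 0, 1, 1, 0, 0⟩),
  (-244380400, ⟨0, -3, 0, 1, 1, 0, 0⟩),
  (393253560, ⟨0, -2, 0, 1, 1, 0, 0⟩),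
  (-1631465520, ⟨0, -1, 0, 1, 1, 0, 0⟩),
  (-6634760, ⟨0, 0, 0, 1, 1, 0, 0⟩),
  (-43128640, ⟨0, -5, 0, 2, 0, 0, 0⟩),
  (-102195720, ⟨0, -4, 0, 2, 0, 0, 0⟩),
  (9297582800, ⟨0, 1, 0, 2, 0, 0, 0⟩),
  (-1554920, ⟨1, -3, 1, 0, 0, 2, 0⟩),
  (-3534480, ⟨1, -2, 1, 0, 0, 2, 0⟩),
  (4121120, ⟨1, -3, 0, 0, 1, 1, 0⟩),
  (338003320, ⟨1, -2, 0, 0, 1, 1, 0⟩),
  (-677920920, ⟨1, -1, 0, 0, 1, 1, 0⟩),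
  (130056280, ⟨1, 0, 0, 0, 1, 1, 0⟩),
  (-3380939200, ⟨1, 1, 0, 0, 1, 1, 0⟩),
  (2499400, ⟨1, -5, 1, 0, 2, 0, 0⟩),
  (74746560, ⟨1, -4, 1, 0, 2, 0, 0⟩),
  (-226187680, ⟨1, -3, 1, 0, 2, 0, 0⟩),
  (64019480, ⟨1, -2, 1, 0, 2, 0, 0⟩),
  (422617400, ⟨1, -1, 1, 0, 2, 0, 0⟩),
  (27198720, ⟨1, -3, 0, 1, 0, 1, 0⟩),
  (21045200, ⟨1, -2, 0, 1, 0, 1, 0⟩),
  (-94421000, ⟨1, -1, 0, 1, 0, 1, 0⟩),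
  (79603200, ⟨1, 0, 0, 1, 0, 1, 0⟩),
  (13755760, ⟨1, -5, 1, 1, 1, 0, 0⟩),
  (-21517880, ⟨1, -4, 1, 1, 1, 0, 0⟩),
  (49484760, ⟨1, -3, 1, 1, 1, 0, 0⟩),
  (-71044000, ⟨1, -2, 1, 1, 1, 0, 0⟩),
  (-16255160, ⟨1, -5, 1, 2, 0, 0, 0⟩),
  (-53228680, ⟨1, -4, 1, 2, 0, 0, 0⟩),
  (174201320, ⟨1, -3, 1, 2, 0, 0, 0⟩),
  (-144363400, ⟨1, -2, 1, 2, 0, 0, 0⟩),
  (-422617400, ⟨1, -1, 1, 2, 0, 0, 0⟩),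
  (65701800, ⟨2, -3, 0, 0, 1, 0, 0⟩),
  (-540284040, ⟨2, -2, 0, 0, 1, 0, 0⟩),
  (1663199280, ⟨2, -1, 0, 0, 1, 0, 0⟩),
  (694784840, ⟨2, 0, 0, 0, 1, 0, 0⟩),
  (-10192400, ⟨2, -3, 0, 1, 0, 0, 0⟩),
  (-12488440, ⟨2, -2, 0, 1, 0, 0, 0⟩),
  (124865080, ⟨2, -1, 0, 1, 0, 0, 0⟩),
  (-627557520, ⟨2, 0, 0, 1, 0, 0, 0⟩),
  (4846720, ⟨3, -5, 0, 0, 0, 0, 1⟩),
  (-3614000, ⟨3, -5, 0, 0, 0, 2, 0⟩),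
  (455720, ⟨3, -3, 0, 0, 0, 2, 0⟩),
  (4654800, ⟨3, -2, 0, 0, 0, 2, 0⟩),
  (2981160, ⟨3, -5, 0, 0, 2, 0, 0⟩),
  (127253040, ⟨3, -4, 0, 0, 2, 0, 0⟩),
  (1395174000, ⟨3, -1, 0, 0, 2, 0, 0⟩),
  (-414942696, ⟨3, 0, 0, 0, 2, 0, 0⟩),
  (1200, ⟨3, 1, 0, 0, 2, 0, 0⟩),
  (30117480, ⟨3, -5, 0, 1, 1, 0, 0⟩),
  (-11074400, ⟨3, -4, 0, 1, 1, 0, 0⟩),
  (-65576840, ⟨3, -3, 0, 1, 1, 0, 0⟩),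
  (115177360, ⟨3, -2, 0, 1, 1, 0, 0⟩),
  (18818760, ⟨3, -5, 0, 2, 0, 0, 0⟩),
  (-116178640, ⟨3, -4, 0, 2, 0, 0, 0⟩),
  (63149320, ⟨3, -3, 0, 2, 0, 0, 0⟩),
  (35019840, ⟨3, -2, 0, 2, 0, 0, 0⟩),
  (-965889680, ⟨3, -1, 0, 2, 0, 0, 0⟩),
  (296387640, ⟨3, 0, 0, 2, 0, 0, 0⟩),
  (-880, ⟨3, 1, 0, 2, 0, 0, 0⟩),
  (-139435120, ⟨5, -3, 0, 0, 1, 0, 0⟩),
  (372072320, ⟨5, -2, 0, 0, 1, 0, 0⟩),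
  (320, ⟨5, 1, 0, 0, 1, 0, 0⟩),
  (24233600, ⟨5, -3, 0, 1, 0, 0, 0⟩),
  (-101870440, ⟨5, 0, 0, 1, 0, 0, 0⟩)]

/-- the polynomial of the certificate (`8 D rr ^ 7` times the pointwise expression) -/
def P : PE := lhsH 5 7 167772160 93803040 (-543168200) 662759120 (-474948840) (-72788640) 101870440 102526760 0 rows

set_option maxRecDepth 100000 in
lemma rows_ok_all : (rows.all fun x => x.2.ok 5) = true := by decide +kernel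

set_option maxRecDepth 100000 in
lemma rows_e_all : (rows.all fun x => decide (0 ≤ ((7 : ℕ) : ℤ) + x.2.e - 2)) = true := by
  decide +kernel

lemma rows_e : ∀ x ∈ rows, 0 ≤ ((7 : ℕ) : ℤ) + x.2.e - 2 := fun x hx =>
  of_decide_eq_true (List.all_eq_true.1 rows_e_all x hx)

/-- all rows are admissible -/
lemma rows_ok : ∀ cT ∈ rlH 167772160 rows, cT.2.ok 5 = true := by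
  intro cT hcT
  unfold rlH at hcT
  obtain ⟨x, hx, rfl⟩ := List.mem_map.1 hcT
  exact List.all_eq_true.1 rows_ok_all x hx

/-- the pointwise inequality from the positivity of the polynomial -/
theorem pos_of {d : R9} (hd : d 0 < 1) (h : 0 ≤ PE.ev (vh d) P) :
    0 ≤ W9 (167772160 / 167772160) (93803040 / 167772160) (-543168200 / 167772160) (662759120 / 167772160) (-474948840 / 167772160) (-72788640 / 167772160) (101870440 / 167772160) (102526760 / 167772160) (0 / 167772160) d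
      + hsum 5 (rlH 167772160 rows) d := by
  have h1 := nonneg_of_lhsH hd 5 (K := 7) (D := 167772160) (by norm_num) 167772160 93803040 (-543168200) 662759120 (-474948840) (-72788640) 101870440 102526760 0 rows_e h
  push_cast at h1
  convert h1 using 2

end

end Vale.Agent.P224.PO.M5
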